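import Vale.Agent.P319.AN

namespace Vale.Agent.Results.P319.LeastNonres

theorem result : ∃ k : ℕ, ∀ p r : ℕ, p.Prime → r.Prime → r ∣ p - 1 →
    ∃ a : ℕ, a ≤ (Nat.log 2 p + 2) ^ k ∧ ¬ ∃ x : ZMod p, x ^ r = (a : ZMod p) :=
  Vale.Agent.P319.small_nonres

end Vale.Agent.Results.P319.LeastNonres
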