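import Vale.Agent.P319.Defs
import Vale.Agent.P319.Main
import Vale.Agent.P319.AN

namespace Vale.Agent.Results.P319.Nonresidue

open Vale.Agent.P319

theorem result : ∀ k : ℕ, ∃ (A : Input → ℕ × List (List ℕ))
    (tm : Turing.TM2ComputableInPolyTime encInput encOutput A), (∀ j, Finite (tm.tm.Γ j)) ∧
    ∀ x : Input, (∀ r : ℕ, r.Prime → r ≤ x.f.natDegree → r ≠ x.p →
      r ∣ x.p - 1 ∨ ¬ r ^ 2 ∣ x.p ^ (r - 1) - 1 ∨
        ∃ l : ℕ, l.Prime ∧ l ≤ (r * Nat.log 2 x.p + 2) ^ k ∧ r ∣ l - 1 ∧ l ≠ x.p ∧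
          ¬ ∃ y : ZMod l, y ^ r = (x.p : ZMod l)) →
      IsFactorization x (A x) := by
  intro k
  obtain ⟨k0, h0⟩ := small_nonres
  obtain ⟨A, tm, h1, h2⟩ := main (k + k0)
  refine ⟨A, tm, h1, fun x hx => h2 x fun r hr hn hp => ?_⟩
  rcases hx r hr hn hp with h | h | ⟨l, l1, l2, l3⟩
  · obtain ⟨a, a1, a2⟩ := h0 x.p r x.hp hr h
    exact Or.inr (Or.inl ⟨h, a, a1.trans (Nat.pow_le_pow_right (by omega) (by omega)), a2⟩)
  · exact Or.inl h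
  · exact Or.inr (Or.inr ⟨l, l1, l2.trans (Nat.pow_le_pow_right (by omega) (by omega)), l3⟩)

end Vale.Agent.Results.P319.Nonresidue

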