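import Vale.Agent.P319.Defs
import Vale.Agent.Results.P319.Nonresidue
import Vale.Agent.P319N.Small

namespace Vale.Agent.Results.P319.PolyTime

open Vale.Agent.P319

theorem result : ∃ (A : Input → ℕ × List (List ℕ))
    (tm : Turing.TM2ComputableInPolyTime encInput encOutput A), (∀ j, Finite (tm.tm.Γ j)) ∧
    ∀ x : Input, IsFactorization x (A x) := by
  obtain ⟨k, hk⟩ := P319N.small_ell
  obtain ⟨A, tm, h1, h2⟩ := Nonresidue.result k
  refine ⟨A, tm, h1, fun x => h2 x fun r hr _ hp => ?_⟩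
  by_cases h : r = 2
  · subst h
    exact Or.inl (even_iff_two_dvd.1 (Nat.Prime.even_sub_one x.hp (Ne.symm hp)))
  · exact Or.inr (Or.inr (hk x.p r x.hp hr h hp))

end Vale.Agent.Results.P319.PolyTime
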